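import Mathlib.Data.Fintype.Card
import Mathlib.Data.Fintype.Prod
import Mathlib.Data.List.Range
import Mathlib.Algebra.BigOperators.Group.Finset.Basic
import Mathlib.Algebra.BigOperators.Ring.List
import Mathlib.Tactic
import Vale.Agent.P052.GraphData

/-!
A strongly regular graph with parameters (416,100,36,20) and clique number five,
together with two orthogonal eigenfunctionals of small support.
-/

namespace Vale.Agent.P052

/-- lookup in a table stored in chunks of sixteen -/
def mask416 : Nat := 2 ^ 416 - 1

/-- the i-th adjacency row, as a set of bits -/
def row (i : Nat) : Nat := (rowData.getD (i / 16) 0 >>> (416 * (i % 16))) &&& mask416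

def adj (i j : Nat) : Bool := (row i).testBit j

/-- entry i of a table packed in nine-bit fields -/
def field (t i : Nat) : Nat := (t >>> (9 * i)) &&& 511

/-- A guess for the bits of S; every use checks it with ofList. -/
def elems : Nat → Nat → List Nat
  | 0, _ => []
  | k + 1, S => if S = 0 then [] else
      field logTable ((S - (S &&& (S - 1))) % 419) :: elems k (S &&& (S - 1))

/-- the set with the given elements, as bits -/
def ofList : List Nat → Nat
  | [] => 0
  | a :: l => 2 ^ a ||| ofList l

abbrev V : Type := Fin 416

def Adj (i j : V) : Prop := adj i.val j.val = true

instance : DecidableRel Adj := fun i j => inferInstanceAs (Decidable (adj i.val j.val = true))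

/-! ## Checks by kernel computation -/

def symCheck : Bool :=
  (List.range 416).all fun j => adj 0 j == adj j 0

def irrCheck : Bool := !(adj 0 0)

def autCheck (p : Nat) : Bool :=
  (List.range 416).all fun i =>
    ofList (elems 416 (row i)) == row i &&
      ofList ((elems 416 (row i)).map (field p)) == row (field p i)

def invCheck (p q : Nat) : Bool :=
  (List.range 416).all fun i => decide (field p i < 416) && field q (field p i) == i

def nbrs0 : List Nat := elems 416 (row 0)

def srgCheck : Bool :=
  (List.range 416).all fun j =>
    nbrs0.countP (adj j) == if j = 0 then 100 else if adj 0 j then 36 else 20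

def descentCheck : Bool :=
  (List.range 416).all fun v =>
    decide (v = 0) || decide (field permTable0 v < v) || decide (field permTable1 v < v)

/-- every way of choosing an element and continuing with the later ones is rejected by f -/
def allChoices (f : Nat → List Nat → Bool) : List Nat → Bool
  | [] => true
  | a :: l => f a l && allChoices f l

/-- no k elements of the list are pairwise adjacent -/
def noClique : Nat → List Nat → Bool
  | 0 => fun _ => false
  | k + 1 => allChoices fun a l => noClique k (l.filter (adj a))

theorem symCheck_ok : symCheck = true := by decide +kernel
theorem irrCheck_ok : irrCheck = true := by decide +kernel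
theorem autCheck0_ok : autCheck permTable0 = true := by decide +kernel
theorem autCheck1_ok : autCheck permTable1 = true := by decide +kernel
theorem invCheck0_ok : invCheck permTable0 permInv0 = true := by decide +kernel
theorem invCheck1_ok : invCheck permTable1 permInv1 = true := by decide +kernel
theorem nbrs0_ofList : ofList nbrs0 = row 0 := by decide +kernel
theorem nbrs0_lt : nbrs0.all (fun a => decide (a < 416)) = true := by decide +kernel
theorem nbrs0_sorted : nbrs0.Pairwise (fun a b => a < b) := by decide +kernel
theorem srgCheck_ok : srgCheck = true := by decide +kernel
theorem descentCheck_ok : descentCheck = true := by decide +kernel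
theorem noClique_ok : noClique 5 nbrs0 = true := by decide +kernel

/-- value at i of a function given by its support list -/
def coef : List (Nat × Int) → Nat → Int
  | [], _ => 0
  | p :: l, i => (if p.1 = i then p.2 else 0) + coef l i

def wsum (l : List (Nat × Int)) (f : Nat → Int) : Int := (l.map fun p => p.2 * f p.1).sum

def eigCheck (l : List (Nat × Int)) : Bool :=
  (List.range 416).all fun i =>
    wsum l (fun k => if adj i k then 1 else 0) == 20 * coef l i

def rangeCheck (l : List (Nat × Int)) : Bool := l.all fun p => decide (p.1 < 416)

theorem eigCheck_u : eigCheck uSupp = true := by decide +kernel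
theorem eigCheck_w : eigCheck wSupp = true := by decide +kernel
theorem rangeCheck_u : rangeCheck uSupp = true := by decide +kernel
theorem rangeCheck_w : rangeCheck wSupp = true := by decide +kernel

theorem wsum_u_one : wsum uSupp (fun _ => 1) = 0 := by decide +kernel
theorem wsum_w_one : wsum wSupp (fun _ => 1) = 0 := by decide +kernel
theorem wsum_u_u : wsum uSupp (coef uSupp) = 64 := by decide +kernel
theorem wsum_w_u : wsum wSupp (coef uSupp) = 0 := by decide +kernel
theorem wsum_w_w : wsum wSupp (coef wSupp) = 192 := by decide +kernel
theorem countP_u : (List.range 416).countP (fun k => decide (coef uSupp k = 0)) = 352 := by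
  decide +kernel
theorem countP_uw :
    (List.range 416).countP (fun k => decide (coef uSupp k = 0 ∧ coef wSupp k = 0)) = 320 := by
  decide +kernel
theorem coef_extra : coef uSupp 4 = -1 ∧ coef wSupp 4 = -1 := by decide +kernel

end Vale.Agent.P052
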