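import Mathlib.Analysis.InnerProductSpace.PiL2
import Mathlib.LinearAlgebra.Trace
import Mathlib.Topology.MetricSpace.Bounded
import Mathlib.Data.Matrix.Mul
import Mathlib.Tactic

/-!
Realising projection Gram matrices in Euclidean space, and the counting criterion for
partitions into parts of smaller diameter.
-/

namespace Vale.Agent.P052

open scoped RealInnerProductSpace

/-- A symmetric matrix with H² = c H and trace c d is a Gram matrix in dimension d. -/
theorem exists_realization {n d : ℕ} (H : Matrix (Fin n) (Fin n) ℝ) (c : ℝ) (hc : 0 < c)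
    (hsymm : ∀ i j, H i j = H j i) (hsq : H * H = c • H) (htr : H.trace = c * d) :
    ∃ x : Fin n → EuclideanSpace ℝ (Fin d), ∀ i j, ⟪x i, x j⟫ = H i j := by
  set P : Matrix (Fin n) (Fin n) ℝ := c⁻¹ • H with hP
  have hPP : P * P = P := by
    rw [hP, Matrix.smul_mul, Matrix.mul_smul, hsq, smul_smul, smul_smul]
    congr 1
    field_simp
  let T : EuclideanSpace ℝ (Fin n) →ₗ[ℝ] EuclideanSpace ℝ (Fin n) := Matrix.toEuclideanLin P
  let W := LinearMap.range T
  have hTT : ∀ v, T (T v) = T v := by
    intro v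
    simp only [T, Matrix.toLpLin_apply, Matrix.mulVec_mulVec, hPP]
  have hproj : LinearMap.IsProj W T := by
    refine ⟨fun v => LinearMap.mem_range_self T v, ?_⟩
    rintro _ ⟨v, rfl⟩
    exact hTT v
  have hdim : Module.finrank ℝ W = d := by
    have h1 := hproj.trace
    have h2 : LinearMap.trace ℝ (EuclideanSpace ℝ (Fin n)) T = P.trace := by
      rw [LinearMap.trace_eq_matrix_trace ℝ (EuclideanSpace.basisFun (Fin n) ℝ).toBasis T]
      congr 1
      ext i j
      simp [T, LinearMap.toMatrix_apply, Matrix.toLpLin_apply, Matrix.mulVec_single]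
    have h3 : P.trace = (d : ℝ) := by
      rw [hP, Matrix.trace_smul, htr, smul_eq_mul]
      field_simp
    rw [h2, h3] at h1
    exact_mod_cast h1.symm
  let φ : W ≃ₗᵢ[ℝ] EuclideanSpace ℝ (Fin d) :=
    ((stdOrthonormalBasis ℝ W).reindex (finCongr hdim)).repr
  let y : Fin n → W := fun i =>
    ⟨Real.sqrt c • T (EuclideanSpace.single i 1),
      W.smul_mem _ (LinearMap.mem_range_self T _)⟩
  refine ⟨fun i => φ (y i), fun i j => ?_⟩
  have hPsymm : ∀ a b, P a b = P b a := fun a b => by simp [hP, hsymm a b]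
  rw [φ.inner_map_map, Submodule.coe_inner]
  simp only [y, real_inner_smul_left, real_inner_smul_right]
  have hcol : ∀ a k, T (EuclideanSpace.single a 1) k = P k a := by
    intro a k
    simp [T, Matrix.toLpLin_apply, Matrix.mulVec_single]
  have hin : ⟪T (EuclideanSpace.single i (1 : ℝ)), T (EuclideanSpace.single j (1 : ℝ))⟫ = P i j := by
    rw [PiLp.inner_apply, ← congrFun (congrFun hPP i) j, Matrix.mul_apply]
    refine Finset.sum_congr rfl (fun k _ => ?_)
    simp [hcol, hPsymm i k, mul_comm]
  rw [hin, ← mul_assoc, Real.mul_self_sqrt hc.le, hP, Matrix.smul_apply, smul_eq_mul]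
  field_simp

/-- Removing one eigenvector from a scaled projection matrix. -/
theorem deflate {n : ℕ} (H : Matrix (Fin n) (Fin n) ℝ) (u : Fin n → ℝ) (c t : ℝ)
    (hsymm : ∀ i j, H i j = H j i) (hsq : H * H = c • H)
    (hu : ∀ i, ∑ j, H i j * u j = c * u i) (ht : t * ∑ i, u i * u i = c) :
    (H - t • Matrix.vecMulVec u u) * (H - t • Matrix.vecMulVec u u) =
      c • (H - t • Matrix.vecMulVec u u) := by
  ext i j
  have h1 : ∑ k, H i k * H k j = c * H i j := by
    have h := congrFun (congrFun hsq i) j
    simpa [Matrix.mul_apply] using h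
  have h2 : ∑ k, u k * H k j = c * u j := by
    rw [← hu j]
    exact Finset.sum_congr rfl (fun k _ => by rw [hsymm k j]; ring)
  have key : ∀ k, (H i k - t * (u i * u k)) * (H k j - t * (u k * u j)) =
      H i k * H k j - t * u j * (H i k * u k) - t * u i * (u k * H k j)
        + t * u i * u j * (t * (u k * u k)) := fun k => by ring
  simp only [Matrix.mul_apply, Matrix.sub_apply, Matrix.smul_apply, Matrix.vecMulVec_apply,
    smul_eq_mul, key, Finset.sum_add_distrib, Finset.sum_sub_distrib, ← Finset.mul_sum, h1, h2,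
    hu i, ht]
  ring

theorem dist_sq_eq {E : Type*} [NormedAddCommGroup E] [InnerProductSpace ℝ E] (a b : E) :
    dist a b ^ 2 = ⟪a, a⟫ - 2 * ⟪a, b⟫ + ⟪b, b⟫ := by
  rw [dist_eq_norm, norm_sub_sq_real, real_inner_self_eq_norm_sq, real_inner_self_eq_norm_sq]

/-- If D is the largest distance in a weighted finite configuration and every set of points
without a pair at distance D weighs at most q, then more than q * m total weight forces
a part of full diameter in every cover by m parts. -/
theorem no_small_cover {E ι : Type*} [MetricSpace E] [Fintype ι] (f : ι → E) (w : ι → ℕ)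
    (R : ι → ι → Prop) (D : ℝ) (q m : ℕ) (hD : 0 < D)
    (hle : ∀ i j, dist (f i) (f j) ≤ D)
    (hfar : ∀ i j, i ≠ j → ¬ R i j → dist (f i) (f j) = D)
    (hclique : ∀ T : Finset ι, (∀ i ∈ T, ∀ j ∈ T, i ≠ j → R i j) → ∑ i ∈ T, w i ≤ q)
    (htot : q * m < ∑ i, w i) (hm : 1 ≤ m) :
    Bornology.IsBounded (Set.range f) ∧ 0 < Metric.diam (Set.range f) ∧
      ∀ P : Fin m → Set E, Set.range f = ⋃ a, P a →
        ∃ a, Metric.diam (Set.range f) ≤ Metric.diam (P a) := by
  classical
  have hb : Bornology.IsBounded (Set.range f) := (Set.finite_range f).isBounded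
  have hdiam : Metric.diam (Set.range f) = D := by
    refine le_antisymm (Metric.diam_le_of_forall_dist_le hD.le ?_) ?_
    · rintro _ ⟨i, rfl⟩ _ ⟨j, rfl⟩
      exact hle i j
    · by_contra hlt
      push Not at hlt
      have hall : ∀ i ∈ (Finset.univ : Finset ι), ∀ j ∈ (Finset.univ : Finset ι), i ≠ j → R i j := by
        intro i _ j _ hij
        by_contra hR
        have h1 := Metric.dist_le_diam_of_mem hb (Set.mem_range_self i) (Set.mem_range_self j)
        rw [hfar i j hij hR] at h1
        linarith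
      have h2 := hclique Finset.univ hall
      have h3 : q * 1 ≤ q * m := Nat.mul_le_mul_left q hm
      omega
  refine ⟨hb, by rw [hdiam]; exact hD, fun P hP => ?_⟩
  rw [hdiam]
  by_contra hcon
  push Not at hcon
  let T : Fin m → Finset ι := fun a => Finset.univ.filter (fun i => f i ∈ P a)
  have hT : ∀ a, ∑ i ∈ T a, w i ≤ q := by
    intro a
    refine hclique _ (fun i hi j hj hij => ?_)
    by_contra hR
    have hPb : Bornology.IsBounded (P a) := hb.subset (hP ▸ Set.subset_iUnion P a)
    have h1 := Metric.dist_le_diam_of_mem hPb (Finset.mem_filter.1 hi).2 (Finset.mem_filter.1 hj).2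
    rw [hfar i j hij hR] at h1
    exact absurd h1 (not_le.2 (hcon a))
  have h4 : ∑ i, w i ≤ ∑ a, ∑ i ∈ T a, w i := by
    rw [Finset.sum_comm' (t' := Finset.univ) (s' := fun i => Finset.univ.filter (fun a => f i ∈ P a))
      (by intro a i; simp [T])]
    refine Finset.sum_le_sum (fun i _ => ?_)
    have hi : f i ∈ ⋃ a, P a := hP ▸ Set.mem_range_self i
    obtain ⟨a, ha⟩ := Set.mem_iUnion.1 hi
    have hamem : a ∈ Finset.univ.filter (fun a => f i ∈ P a) :=
      Finset.mem_filter.2 ⟨Finset.mem_univ _, ha⟩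
    exact Finset.single_le_sum (f := fun _ => w i) (fun _ _ => Nat.zero_le _) hamem
  have h5 : ∑ a, ∑ i ∈ T a, w i ≤ q * m := by
    calc ∑ a, ∑ i ∈ T a, w i ≤ ∑ _a : Fin m, q := Finset.sum_le_sum (fun a _ => hT a)
      _ = q * m := by simp [mul_comm]
  omega

end Vale.Agent.P052
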