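import Vale.Agent.P052.Graph
import Vale.Agent.P052.Geometry

/-!
Point sets in dimension 63 and in dimension 64 + k that need many parts.
-/

namespace Vale.Agent.P052

open scoped RealInnerProductSpace

noncomputable def aR (i j : V) : ℝ := if Adj i j then 1 else 0

theorem aR_symm (i j : V) : aR i j = aR j i := by
  unfold aR
  exact if_congr (adj_comm i j) rfl rfl

theorem row_sum (i : V) : ∑ j, aR i j = 100 := by
  have h := common i i
  rw [if_pos rfl] at h
  simp only [and_self] at h
  unfold aR
  rw [Finset.sum_boole, h]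
  norm_num

theorem col_sum (j : V) : ∑ i, aR i j = 100 := by
  rw [← row_sum j]
  exact Finset.sum_congr rfl (fun i _ => aR_symm i j)

theorem aR_sq (i j : V) :
    ∑ k, aR i k * aR k j = 80 * (if i = j then 1 else 0) + 16 * aR i j + 20 := by
  have h1 : ∀ k, aR i k * aR k j = if Adj i k ∧ Adj j k then 1 else 0 := by
    intro k
    rw [aR_symm k j]
    unfold aR
    by_cases ha : Adj i k <;> by_cases hb : Adj j k <;> simp [ha, hb]
  rw [Finset.sum_congr rfl (fun k _ => h1 k), Finset.sum_boole, common i j]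
  by_cases h : i = j
  · subst h
    simp [aR, adj_irrefl]
    norm_num
  · by_cases hA : Adj i j <;> simp [h, hA, aR] <;> norm_num

/-- fifteen times the Gram matrix of the two-distance representation in dimension 65 -/
noncomputable def gram : Matrix V V ℝ :=
  fun i j => 16 * (if i = j then 1 else 0) + 4 * aR i j - 1

theorem gram_symm (i j : V) : gram i j = gram j i := by
  unfold gram
  rw [aR_symm i j]
  simp [eq_comm]

theorem gram_self (i : V) : gram i i = 15 := by
  simp [gram, aR, adj_irrefl]
  norm_num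

theorem gram_adj {i j : V} (h : Adj i j) : gram i j = 3 := by
  have hne : i ≠ j := fun e => adj_irrefl i (by rw [← e] at h; exact h)
  simp [gram, aR, h, hne]
  norm_num

theorem gram_far {i j : V} (hne : i ≠ j) (h : ¬ Adj i j) : gram i j = -1 := by
  simp [gram, aR, h, hne]

theorem gram_sq : gram * gram = (96 : ℝ) • gram := by
  ext i j
  have key : ∀ k, gram i k * gram k j =
      256 * ((if i = k then (1:ℝ) else 0) * (if k = j then 1 else 0))
      + 64 * ((if i = k then (1:ℝ) else 0) * aR k j) - 16 * (if i = k then (1:ℝ) else 0)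
      + 64 * (aR i k * (if k = j then (1:ℝ) else 0)) + 16 * (aR i k * aR k j) - 4 * aR i k
      - 16 * (if k = j then (1:ℝ) else 0) - 4 * aR k j + 1 := fun k => by
    unfold gram
    ring
  rw [Matrix.mul_apply, Finset.sum_congr rfl (fun k _ => key k)]
  simp only [Finset.sum_add_distrib, Finset.sum_sub_distrib, ← Finset.mul_sum, aR_sq, row_sum,
    col_sum, Matrix.smul_apply, smul_eq_mul, ite_mul, mul_ite, one_mul, mul_one, zero_mul,
    mul_zero, Finset.sum_ite_eq, Finset.sum_ite_eq', Finset.mem_univ, if_true, Finset.sum_const,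
    Finset.card_univ, Fintype.card_fin, nsmul_eq_mul]
  unfold gram
  split_ifs <;> ring

theorem gram_trace : gram.trace = 96 * 65 := by
  simp only [Matrix.trace, Matrix.diag_apply, gram_self, Finset.sum_const, Finset.card_univ,
    Fintype.card_fin, nsmul_eq_mul]
  norm_num

noncomputable def ru (i : V) : ℝ := (fu i : ℝ)
noncomputable def rw' (i : V) : ℝ := (fw i : ℝ)

theorem gram_eigen (f : V → ℤ) (hadj : ∀ i, (∑ j, if Adj i j then f j else 0) = 20 * f i)
    (hsum : ∑ i, f i = 0) (i : V) : ∑ j, gram i j * (f j : ℝ) = 96 * (f i : ℝ) := by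
  have key : ∀ j, gram i j * (f j : ℝ) = 16 * ((if i = j then (1:ℝ) else 0) * (f j : ℝ))
      + 4 * (((if Adj i j then f j else 0 : ℤ)) : ℝ) - (f j : ℝ) := by
    intro j
    unfold gram aR
    split_ifs <;> push_cast <;> ring
  rw [Finset.sum_congr rfl (fun j _ => key j)]
  simp only [Finset.sum_add_distrib, Finset.sum_sub_distrib, ← Finset.mul_sum, ← Int.cast_sum,
    hadj, hsum, ite_mul, one_mul, zero_mul, Finset.sum_ite_eq, Finset.mem_univ, if_true]
  push_cast
  ring

theorem gram_u (i : V) : ∑ j, gram i j * ru j = 96 * ru i :=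
  gram_eigen fu adj_sum_fu sum_fu i

theorem gram_w (i : V) : ∑ j, gram i j * rw' j = 96 * rw' i :=
  gram_eigen fw adj_sum_fw sum_fw i

theorem ru_ru : ∑ i, ru i * ru i = 64 := by
  unfold ru
  exact_mod_cast fu_fu

theorem ru_rw : ∑ i, ru i * rw' i = 0 := by
  unfold ru rw'
  exact_mod_cast fu_fw

theorem rw_rw : ∑ i, rw' i * rw' i = 192 := by
  unfold rw'
  exact_mod_cast fw_fw

noncomputable def gram64 : Matrix V V ℝ := gram - (3 / 2 : ℝ) • Matrix.vecMulVec ru ru

noncomputable def gram63 : Matrix V V ℝ := gram64 - (1 / 2 : ℝ) • Matrix.vecMulVec rw' rw'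

theorem gram64_apply (i j : V) : gram64 i j = gram i j - 3 / 2 * (ru i * ru j) := by
  simp [gram64, Matrix.vecMulVec_apply]

theorem gram63_apply (i j : V) :
    gram63 i j = gram i j - 3 / 2 * (ru i * ru j) - 1 / 2 * (rw' i * rw' j) := by
  simp [gram63, gram64, Matrix.vecMulVec_apply]

theorem gram64_symm (i j : V) : gram64 i j = gram64 j i := by
  rw [gram64_apply, gram64_apply, gram_symm i j]
  ring

theorem gram63_symm (i j : V) : gram63 i j = gram63 j i := by
  rw [gram63_apply, gram63_apply, gram_symm i j]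
  ring

theorem gram64_sq : gram64 * gram64 = (96 : ℝ) • gram64 :=
  deflate gram ru 96 (3 / 2) gram_symm gram_sq gram_u (by rw [ru_ru]; norm_num)

theorem gram64_w (i : V) : ∑ j, gram64 i j * rw' j = 96 * rw' i := by
  have key : ∀ j, gram64 i j * rw' j = gram i j * rw' j - 3 / 2 * ru i * (ru j * rw' j) :=
    fun j => by rw [gram64_apply]; ring
  rw [Finset.sum_congr rfl (fun j _ => key j), Finset.sum_sub_distrib, ← Finset.mul_sum, gram_w,
    ru_rw]
  ring

theorem gram63_sq : gram63 * gram63 = (96 : ℝ) • gram63 :=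
  deflate gram64 rw' 96 (1 / 2) gram64_symm gram64_sq gram64_w (by rw [rw_rw]; norm_num)

theorem gram64_trace : gram64.trace = 96 * ((64 : ℕ) : ℝ) := by
  rw [gram64, Matrix.trace_sub, Matrix.trace_smul, gram_trace, Matrix.trace_vecMulVec]
  simp only [dotProduct, ru_ru, smul_eq_mul]
  norm_num

theorem gram63_trace : gram63.trace = 96 * ((63 : ℕ) : ℝ) := by
  rw [gram63, Matrix.trace_sub, Matrix.trace_smul, gram64_trace, Matrix.trace_vecMulVec]
  simp only [dotProduct, rw_rw, smul_eq_mul]
  norm_num

/-- A set needing more than m parts of smaller diameter. -/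
def NeedsMore (d m : ℕ) : Prop :=
  ∃ Y : Set (EuclideanSpace ℝ (Fin d)), Bornology.IsBounded Y ∧ 0 < Metric.diam Y ∧
    ∀ P : Fin m → Set (EuclideanSpace ℝ (Fin d)), Y = ⋃ a, P a →
      ∃ a, Metric.diam Y ≤ Metric.diam (P a)

theorem clique_sum_le {ι : Type*} (v : ι → V) (hv : Function.Injective v) (T : Finset ι)
    (hT : ∀ i ∈ T, ∀ j ∈ T, i ≠ j → Adj (v i) (v j)) : T.card ≤ 5 := by
  rw [← Finset.card_map ⟨v, hv⟩]
  refine clique_le_five _ ?_
  intro a ha b hb hab
  obtain ⟨i, hi, rfl⟩ := Finset.mem_map.1 ha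
  obtain ⟨j, hj, rfl⟩ := Finset.mem_map.1 hb
  exact hT i hi j hj (fun h => hab (by rw [h]))

/-- the vertices on which both functionals vanish -/
abbrev Both : Type := {i : V // fu i = 0 ∧ fw i = 0}

theorem needs_63 : NeedsMore 63 64 := by
  classical
  obtain ⟨x, hx⟩ := exists_realization gram63 96 (by norm_num) gram63_symm gram63_sq gram63_trace
  obtain ⟨hu4, hw4⟩ := extra_vertex
  set α : ℝ := (Real.sqrt 222 - 1) / 13 with hα
  have hs : Real.sqrt 222 * Real.sqrt 222 = 222 := Real.mul_self_sqrt (by norm_num)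
  have hα0 : 0 < α := by
    have : (1 : ℝ) < Real.sqrt 222 := by rw [Real.lt_sqrt] <;> norm_num
    rw [hα]
    linarith
  have hαq : 13 * (α * α) + 2 * α = 17 := by
    have h1 : 13 * α + 1 = Real.sqrt 222 := by rw [hα]; ring
    rw [← h1] at hs
    linear_combination hs / 13
  let v : Both ⊕ Unit → V := fun i => i.elim (fun s => s.1) (fun _ => 4)
  have hne4 : ∀ a : Both, (a.1 : V) ≠ 4 := fun a h =>
    absurd ((congrArg fu h).symm.trans a.2.1) (by rw [hu4]; norm_num)
  have hv : Function.Injective v :=
    Function.Injective.sumElim Subtype.val_injective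
      (fun _ _ _ => Subsingleton.elim _ _) (fun a _ => hne4 a)
  let f : Both ⊕ Unit → EuclideanSpace ℝ (Fin 63) :=
    fun i => i.elim (fun s => x s.1) (fun _ => α • x 4)
  have hbb : ∀ a b : Both, ⟪f (.inl a), f (.inl b)⟫ = gram a.1 b.1 := by
    intro a b
    simp only [f, Sum.elim_inl, hx, gram63_apply, ru, rw', a.2.1, a.2.2]
    simp
  have hbp : ∀ a : Both, ⟪f (.inl a), f (.inr ())⟫ = α * gram a.1 4 := by
    intro a
    simp only [f, Sum.elim_inl, Sum.elim_inr, real_inner_smul_right, hx, gram63_apply, ru, rw',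
      a.2.1, a.2.2]
    simp
  have hpp : ⟪f (.inr ()), f (.inr ())⟫ = 13 * (α * α) := by
    simp only [f, Sum.elim_inr, real_inner_smul_left, real_inner_smul_right, hx, gram63_apply, ru,
      rw', gram_self, hu4, hw4]
    push_cast
    ring
  have hdist : ∀ i j, i ≠ j →
      (¬ Adj (v i) (v j) → dist (f i) (f j) ^ 2 = 32) ∧ dist (f i) (f j) ^ 2 ≤ 32 := by
    have haux := hne4
    rintro (a | ⟨⟩) (b | ⟨⟩) hij
    · have hne : a.1 ≠ b.1 := fun h => hij (by rw [Subtype.ext h])
      rw [dist_sq_eq, hbb, hbb, hbb, gram_self, gram_self]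
      simp only [v, Sum.elim_inl]
      by_cases hA : Adj a.1 b.1
      · exact ⟨fun h => absurd hA h, by rw [gram_adj hA]; norm_num⟩
      · rw [gram_far hne hA]
        norm_num
    · rw [dist_sq_eq, hbb, hbp, hpp, gram_self]
      simp only [v, Sum.elim_inl, Sum.elim_inr]
      by_cases hA : Adj a.1 4
      · exact ⟨fun h => absurd hA h, by rw [gram_adj hA]; linarith⟩
      · rw [gram_far (haux a) hA]
        exact ⟨fun _ => by linarith, by linarith⟩
    · rw [dist_comm, dist_sq_eq, hbb, hbp, hpp, gram_self]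
      simp only [v, Sum.elim_inl, Sum.elim_inr]
      by_cases hA : Adj 4 b.1
      · exact ⟨fun h => absurd hA h, by rw [gram_adj (adj_symm _ _ hA)]; linarith⟩
      · rw [gram_far (haux b) (fun h => hA (adj_symm _ _ h))]
        exact ⟨fun _ => by linarith, by linarith⟩
    · exact absurd rfl hij
  have hcard : Fintype.card Both = 320 := by
    rw [Fintype.card_subtype]
    exact card_zero_both
  refine ⟨Set.range f, no_small_cover f (fun _ => 1) (fun i j => Adj (v i) (v j)) (Real.sqrt 32)
    5 64 (by positivity) ?_ ?_ ?_ ?_ (by norm_num)⟩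
  · intro i j
    by_cases hij : i = j
    · subst hij
      simp
    · exact Real.le_sqrt_of_sq_le (hdist i j hij).2
  · intro i j hij hA
    rw [← Real.sqrt_sq dist_nonneg (x := dist (f i) (f j)), (hdist i j hij).1 hA]
  · intro T hT
    simpa using clique_sum_le v hv T hT
  · simp [hcard]

/-- k further points at distance √32 from each other and from a 64-dimensional configuration
on the sphere of squared radius 15. -/
theorem needs_64_add (k : ℕ) : NeedsMore (64 + k) (65 + k) := by
  classical
  obtain ⟨x, hx⟩ := exists_realization gram64 96 (by norm_num) gram64_symm gram64_sq gram64_trace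
  set t : ℝ := (Real.sqrt (16 + k) - 4) / k with ht
  have htq : ∀ _m : Fin k, 8 * t + k * (t * t) = 1 := by
    intro m
    have hk : (k : ℝ) ≠ 0 := by
      have := m.pos
      positivity
    have hs : Real.sqrt (16 + k) * Real.sqrt (16 + k) = 16 + k :=
      Real.mul_self_sqrt (by positivity)
    rw [ht]
    field_simp
    nlinarith [hs]
  let q : Fin k → Fin k → ℝ := fun m l => 4 * (if m = l then 1 else 0) + t
  have hq : ∀ m m', ∑ l, q m l * q m' l = if m = m' then 17 else 1 := by
    intro m m'
    have key : ∀ l, q m l * q m' l = 16 * ((if m = l then (1:ℝ) else 0) * (if m' = l then 1 else 0))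
        + 4 * t * (if m = l then (1:ℝ) else 0) + 4 * t * (if m' = l then (1:ℝ) else 0) + t * t :=
      fun l => by simp only [q]; ring
    rw [Finset.sum_congr rfl (fun l _ => key l)]
    simp only [Finset.sum_add_distrib, ← Finset.mul_sum, ite_mul, one_mul, zero_mul,
      Finset.sum_ite_eq, Finset.mem_univ, if_true, Finset.sum_const, Finset.card_univ,
      Fintype.card_fin, nsmul_eq_mul]
    have := htq m
    by_cases h : m = m'
    · simp [h]
      linarith
    · simp [h, Ne.symm h]
      linarith
  let Z : Type := {i : V // fu i = 0}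
  let f : Z ⊕ Fin k → EuclideanSpace ℝ (Fin (64 + k)) := fun i =>
    WithLp.toLp 2 (i.elim (fun s => Fin.append (fun l => x s.1 l) 0) (fun m => Fin.append 0 (q m)))
  have hzz : ∀ a b : Z, ⟪f (.inl a), f (.inl b)⟫ = gram a.1 b.1 := by
    intro a b
    have h := hx a.1 b.1
    rw [gram64_apply] at h
    simp only [ru, a.2, Int.cast_zero, zero_mul, mul_zero, sub_zero] at h
    rw [← h]
    simp [f, PiLp.inner_apply, Fin.sum_univ_add]
  have hzq : ∀ (a : Z) (m : Fin k), ⟪f (.inl a), f (.inr m)⟫ = 0 := by
    intro a m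
    simp [f, PiLp.inner_apply, Fin.sum_univ_add]
  have hqq : ∀ m m', ⟪f (.inr m), f (.inr m')⟫ = if m = m' then (17:ℝ) else 1 := by
    intro m m'
    rw [← hq m m']
    simp [f, PiLp.inner_apply, Fin.sum_univ_add, mul_comm]
  let R : Z ⊕ Fin k → Z ⊕ Fin k → Prop := fun i j =>
    match i, j with
    | .inl a, .inl b => Adj a.1 b.1
    | _, _ => False
  let w : Z ⊕ Fin k → ℕ := fun i => i.elim (fun _ => 1) (fun _ => 5)
  have hdist : ∀ i j, i ≠ j → (¬ R i j → dist (f i) (f j) ^ 2 = 32) ∧ dist (f i) (f j) ^ 2 ≤ 32 := by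
    rintro (a | m) (b | m') hij
    · have hne : a.1 ≠ b.1 := fun h => hij (by rw [Subtype.ext h])
      rw [dist_sq_eq, hzz, hzz, hzz, gram_self, gram_self]
      by_cases hA : Adj a.1 b.1
      · exact ⟨fun h => absurd hA h, by rw [gram_adj hA]; norm_num⟩
      · rw [gram_far hne hA]
        norm_num
    · rw [dist_sq_eq, hzz, hzq, hqq, gram_self, if_pos rfl]
      norm_num
    · rw [dist_comm, dist_sq_eq, hzz, hzq, hqq, gram_self, if_pos rfl]
      norm_num
    · have hne : m ≠ m' := fun h => hij (by rw [h])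
      rw [dist_sq_eq, hqq, hqq, hqq, if_pos rfl, if_pos rfl, if_neg hne]
      norm_num
  have hcard : Fintype.card Z = 352 := by
    rw [Fintype.card_subtype]
    exact card_zero_u
  refine ⟨Set.range f, no_small_cover f w R (Real.sqrt 32) 5 (65 + k) (by positivity) ?_ ?_ ?_ ?_
    (by omega)⟩
  · intro i j
    by_cases hij : i = j
    · subst hij
      simp
    · exact Real.le_sqrt_of_sq_le (hdist i j hij).2
  · intro i j hij hA
    rw [← Real.sqrt_sq dist_nonneg (x := dist (f i) (f j)), (hdist i j hij).1 hA]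
  · intro T hT
    by_cases h : ∃ m, Sum.inr m ∈ T
    · obtain ⟨m, hm⟩ := h
      have hsingle : T = {Sum.inr m} := by
        refine Finset.eq_singleton_iff_unique_mem.2 ⟨hm, fun y hy => ?_⟩
        by_contra hne
        have := hT y hy _ hm hne
        rcases y with a | m' <;> exact this
      rw [hsingle]
      simp [w]
    · push Not at h
      have hw : ∀ i ∈ T, w i = 1 := by
        rintro (a | m) hi
        · rfl
        · exact absurd hi (h m)
      have hAll : T = T.toLeft.map ⟨Sum.inl, Sum.inl_injective⟩ := by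
        ext (a | m) <;> simp [h]
      rw [Finset.sum_congr rfl hw, Finset.sum_const, smul_eq_mul, mul_one, hAll, Finset.card_map]
      refine clique_sum_le (fun z : Z => z.1) Subtype.val_injective _ (fun a ha b hb hab => ?_)
      exact hT _ (Finset.mem_toLeft.1 ha) _ (Finset.mem_toLeft.1 hb) (fun e => hab (Sum.inl_injective e))
  · simp [w, Fintype.sum_sum_type, hcard]
    omega

end Vale.Agent.P052
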