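import Vale.Agent.P052.Checks

/-!
Consequences of the kernel checks for the graph on 416 vertices.
-/

namespace Vale.Agent.P052

attribute [local irreducible] adj coef

/-! ## Consequences -/

def perm (p : Nat) (i : V) : V := ⟨field p i.val % 416, Nat.mod_lt _ (by norm_num)⟩

theorem testBit_ofList : ∀ (l : List Nat) (x : Nat), (ofList l).testBit x = true ↔ x ∈ l
  | [], x => by simp [ofList]
  | a :: l, x => by
    rw [ofList, Nat.testBit_or, Bool.or_eq_true, testBit_ofList l x, Nat.testBit_two_pow,
      decide_eq_true_iff, List.mem_cons, eq_comm]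

theorem mem_nbrs0 (k : Nat) : k ∈ nbrs0 ↔ adj 0 k = true := by
  rw [← testBit_ofList, nbrs0_ofList]
  unfold adj
  exact Iff.rfl

theorem nbrs0_bound {k : Nat} (h : k ∈ nbrs0) : k < 416 :=
  of_decide_eq_true (List.all_eq_true.1 nbrs0_lt k h)

structure IsAut (g : V → V) : Prop where
  bij : Function.Bijective g
  map_adj : ∀ i j, Adj (g i) (g j) ↔ Adj i j

theorem rel_iff_of_injective {α : Type*} [Fintype α] [DecidableEq α] (R : α → α → Prop)
    [DecidableRel R] (g : α → α) (hg : Function.Injective g)
    (h : ∀ i j, R i j → R (g i) (g j)) (i j : α) : R (g i) (g j) ↔ R i j := by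
  refine ⟨fun hij => ?_, h i j⟩
  let S := (Finset.univ : Finset (α × α)).filter (fun q => R q.1 q.2)
  have hG : Function.Injective (Prod.map g g) := Function.Injective.prodMap hg hg
  have hsub : S.image (Prod.map g g) ⊆ S := by
    intro q hq
    obtain ⟨r, hr, rfl⟩ := Finset.mem_image.1 hq
    exact Finset.mem_filter.2 ⟨Finset.mem_univ _, h _ _ (Finset.mem_filter.1 hr).2⟩
  have heq : S.image (Prod.map g g) = S :=
    Finset.eq_of_subset_of_card_le hsub (le_of_eq (Finset.card_image_of_injective S hG).symm)
  have hmem : Prod.map g g (i, j) ∈ S.image (Prod.map g g) := by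
    rw [heq]
    exact Finset.mem_filter.2 ⟨Finset.mem_univ _, hij⟩
  obtain ⟨r, hr, hrq⟩ := Finset.mem_image.1 hmem
  have hr2 := (Finset.mem_filter.1 hr).2
  rw [hG hrq] at hr2
  exact hr2

theorem card_common_map {α : Type*} [Fintype α] [DecidableEq α] (R : α → α → Prop)
    [DecidableRel R] (g : α → α) (hg : Function.Bijective g)
    (h : ∀ i j, R (g i) (g j) ↔ R i j) (i j : α) :
    (Finset.univ.filter (fun k => R i k ∧ R j k)).card =
      (Finset.univ.filter (fun k => R (g i) k ∧ R (g j) k)).card := by
  refine Finset.card_bij (fun k _ => g k) ?_ (fun a _ b _ e => hg.1 e) ?_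
  · intro k hk
    simpa [h] using hk
  · intro k hk
    obtain ⟨a, rfl⟩ := hg.2 k
    exact ⟨a, by simpa [h] using hk, rfl⟩

theorem isAut_of_check {p q : Nat} (h : autCheck p = true) (hq : invCheck p q = true) :
    IsAut (perm p) := by
  simp only [autCheck, invCheck, List.all_eq_true, List.mem_range, Bool.and_eq_true,
    decide_eq_true_eq, beq_iff_eq] at h hq
  have hval : ∀ i : V, (perm p i).val = field p i.val :=
    fun i => Nat.mod_eq_of_lt (hq i.val i.isLt).1
  have hinj : Function.Injective (perm p) := by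
    intro i j hij
    apply Fin.ext
    rw [← (hq i.val i.isLt).2, ← (hq j.val j.isLt).2, ← hval i, ← hval j, hij]
  have hfwd : ∀ i j : V, Adj i j → Adj (perm p i) (perm p j) := by
    intro i j hij
    obtain ⟨h1, h2⟩ := h i.val i.isLt
    unfold Adj adj at *
    rw [hval i, hval j, ← h2, testBit_ofList]
    rw [← h1, testBit_ofList] at hij
    exact List.mem_map_of_mem hij
  exact ⟨Finite.injective_iff_bijective.1 hinj, rel_iff_of_injective Adj _ hinj hfwd⟩

theorem descent (i : V) : i = 0 ∨ ∃ g : V → V, IsAut g ∧ g i < i := by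
  have h1 := descentCheck_ok
  simp only [descentCheck, List.all_eq_true, List.mem_range, Bool.or_eq_true,
    decide_eq_true_eq] at h1
  rcases h1 i.val i.isLt with (h | h) | h
  · exact Or.inl (Fin.ext h)
  · refine Or.inr ⟨_, isAut_of_check autCheck0_ok invCheck0_ok, ?_⟩
    exact Fin.lt_def.2 (lt_of_le_of_lt (Nat.mod_le _ _) h)
  · refine Or.inr ⟨_, isAut_of_check autCheck1_ok invCheck1_ok, ?_⟩
    exact Fin.lt_def.2 (lt_of_le_of_lt (Nat.mod_le _ _) h)

/-- Every vertex is carried to 0 by some automorphism. -/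
theorem exists_aut_zero : ∀ i : V, ∃ g : V → V, IsAut g ∧ g i = 0 := by
  intro i
  induction i using WellFoundedLT.induction with
  | _ i ih =>
    rcases descent i with h | ⟨g, hg, hlt⟩
    · exact ⟨id, ⟨Function.bijective_id, fun _ _ => Iff.rfl⟩, h⟩
    · obtain ⟨g', hg', h0⟩ := ih (g i) hlt
      exact ⟨g' ∘ g, ⟨hg'.bij.comp hg.bij,
        fun a b => (hg'.map_adj _ _).trans (hg.map_adj a b)⟩, h0⟩

theorem adj_symm (i j : V) (h : Adj i j) : Adj j i := by
  have h1 := symCheck_ok
  simp only [symCheck, List.all_eq_true, List.mem_range, beq_iff_eq] at h1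
  obtain ⟨g, hg, h0⟩ := exists_aut_zero i
  rw [← hg.map_adj, h0] at h
  rw [← hg.map_adj, h0]
  unfold Adj at *
  exact (h1 (g j).val (g j).isLt).symm.trans h

theorem adj_comm (i j : V) : Adj i j ↔ Adj j i := ⟨adj_symm i j, adj_symm j i⟩

theorem adj_irrefl (i : V) : ¬ Adj i i := by
  obtain ⟨g, hg, h0⟩ := exists_aut_zero i
  rw [← hg.map_adj, h0]
  have h1 := irrCheck_ok
  simpa [irrCheck, Adj] using h1

theorem card_filter_eq_countP (p : Nat → Bool) :
    (Finset.univ.filter (fun k : V => p k.val = true)).card = (List.range 416).countP p := by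
  have h1 : (Finset.univ.filter (fun k : V => p k.val = true)).card =
      ((Finset.range 416).filter (fun k => p k = true)).card := by
    rw [← Finset.card_map Fin.valEmbedding]
    congr 1
    ext k
    simp only [Finset.mem_map, Finset.mem_filter, Finset.mem_univ, true_and,
      Fin.valEmbedding_apply, Finset.mem_range]
    constructor
    · rintro ⟨a, ha, rfl⟩
      exact ⟨a.isLt, ha⟩
    · rintro ⟨hk, hp⟩
      exact ⟨⟨k, hk⟩, hp, rfl⟩
  rw [h1, List.countP_eq_length_filter, Finset.card_def, Finset.filter_val, Finset.range_val,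
    Multiset.range, Multiset.filter_coe, Multiset.coe_card]
  simp

theorem common_zero (j : V) :
    (Finset.univ.filter (fun k => Adj 0 k ∧ Adj j k)).card =
      if j = 0 then 100 else if Adj 0 j then 36 else 20 := by
  have h1 := srgCheck_ok
  simp only [srgCheck, List.all_eq_true, List.mem_range, beq_iff_eq] at h1
  have h2 := h1 j.val j.isLt
  have h3 : (Finset.univ.filter (fun k : V => Adj 0 k ∧ Adj j k)) =
      Finset.univ.filter (fun k : V => (adj 0 k.val && adj j.val k.val) = true) := by
    apply Finset.filter_congr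
    intro k _
    simp [Adj]
  have h4 : (List.range 416).countP (fun k => adj 0 k && adj j.val k) =
      nbrs0.countP (adj j.val) := by
    rw [List.countP_eq_length_filter, List.countP_eq_length_filter]
    refine List.Perm.length_eq ((List.perm_ext_iff_of_nodup (List.nodup_range.filter _)
      ((nbrs0_sorted.imp (fun h => Nat.ne_of_lt h)).filter _)).2 (fun k => ?_))
    simp only [List.mem_filter, List.mem_range, Bool.and_eq_true, mem_nbrs0]
    exact ⟨fun h => h.2, fun h => ⟨nbrs0_bound ((mem_nbrs0 k).2 h.1), h⟩⟩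
  rw [h3, card_filter_eq_countP (fun k => adj 0 k && adj j.val k), h4, h2]
  have e1 : j.val = 0 ↔ j = 0 := ⟨fun h => Fin.ext h, fun h => by rw [h]; rfl⟩
  exact if_congr e1 rfl (if_congr Iff.rfl rfl rfl)

/-- The strongly regular counts. -/
theorem common (i j : V) :
    (Finset.univ.filter (fun k => Adj i k ∧ Adj j k)).card =
      if i = j then 100 else if Adj i j then 36 else 20 := by
  obtain ⟨g, hg, h0⟩ := exists_aut_zero i
  have hc := card_common_map Adj g hg.bij hg.map_adj i j
  rw [hc, h0, common_zero (g j)]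
  have e1 : g j = 0 ↔ i = j := by rw [← h0, hg.bij.1.eq_iff, eq_comm]
  have e2 : Adj 0 (g j) ↔ Adj i j := by rw [← h0, hg.map_adj]
  simp only [e1, e2]

theorem noClique_sound : ∀ (k : Nat) (l : List Nat), noClique k l = true →
    ∀ s : List Nat, s.Sublist l → s.length = k → ¬ s.Pairwise (fun a b => adj a b = true)
  | 0, l, h => by simp [noClique] at h
  | k + 1, l, h => by
    induction l with
    | nil =>
      intro s hs hlen
      rw [List.sublist_nil.1 hs] at hlen
      simp at hlen
    | cons a l ih =>
      simp only [noClique, allChoices, Bool.and_eq_true] at h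
      intro s hs hlen hp
      cases hs with
      | cons _ hs' => exact ih h.2 s hs' hlen hp
      | cons_cons _ hs' =>
        rename_i s'
        rw [List.pairwise_cons] at hp
        refine noClique_sound k _ h.1 s' ?_ (by simpa using hlen) hp.2
        have := hs'.filter (adj a)
        rwa [List.filter_eq_self.2 hp.1] at this

/-- At most five vertices are pairwise adjacent. -/
theorem clique_le_five (T : Finset V)
    (hT : ∀ i ∈ T, ∀ j ∈ T, i ≠ j → Adj i j) : T.card ≤ 5 := by
  by_contra hcon
  obtain ⟨T', hsub, hcard⟩ := Finset.exists_subset_card_eq (by omega : 6 ≤ T.card)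
  obtain ⟨i, hi⟩ : T'.Nonempty := Finset.card_pos.1 (by omega)
  obtain ⟨g, hg, h0⟩ := exists_aut_zero i
  let U : Finset V := (T'.erase i).image g
  have hU : U.card = 5 := by
    rw [Finset.card_image_of_injective _ hg.bij.1, Finset.card_erase_of_mem hi, hcard]
  have hUc : ∀ a ∈ U, ∀ b ∈ U, a ≠ b → Adj a b := by
    intro a ha b hb hab
    obtain ⟨x, hx, rfl⟩ := Finset.mem_image.1 ha
    obtain ⟨y, hy, rfl⟩ := Finset.mem_image.1 hb
    exact (hg.map_adj x y).2 (hT x (hsub (Finset.mem_of_mem_erase hx)) y
      (hsub (Finset.mem_of_mem_erase hy)) (fun h => hab (by rw [h])))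
  have hU0 : ∀ a ∈ U, Adj 0 a := by
    intro a ha
    obtain ⟨x, hx, rfl⟩ := Finset.mem_image.1 ha
    rw [← h0]
    exact (hg.map_adj i x).2 (hT i (hsub hi) x (hsub (Finset.mem_of_mem_erase hx))
      (Finset.ne_of_mem_erase hx).symm)
  let L := U.map Fin.valEmbedding
  let s := nbrs0.filter (fun a => decide (a ∈ L))
  have hs : s.Sublist nbrs0 := List.filter_sublist
  have hnd : s.Nodup := List.Nodup.filter _ (nbrs0_sorted.imp (fun h => Nat.ne_of_lt h))
  have hmem : ∀ a, a ∈ s ↔ a ∈ L := by
    intro a
    simp only [s, List.mem_filter, decide_eq_true_eq]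
    constructor
    · exact fun h => h.2
    · intro ha
      obtain ⟨b, hb, hba⟩ := Finset.mem_map.1 ha
      rw [Fin.valEmbedding_apply] at hba
      subst hba
      exact ⟨(mem_nbrs0 _).2 (hU0 b hb), ha⟩
  have hlen : s.length = 5 := by
    rw [← List.toFinset_card_of_nodup hnd, show s.toFinset = L by ext a; simp [hmem],
      Finset.card_map, hU]
  refine noClique_sound 5 _ noClique_ok s hs hlen ?_
  have hne : s.Pairwise (fun a b => a ≠ b) := hnd
  refine List.Pairwise.imp_of_mem ?_ hne
  intro a b ha hb hab
  obtain ⟨x, hx, hxa⟩ := Finset.mem_map.1 ((hmem a).1 ha)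
  obtain ⟨y, hy, hyb⟩ := Finset.mem_map.1 ((hmem b).1 hb)
  rw [Fin.valEmbedding_apply] at hxa hyb
  subst hxa hyb
  exact hUc x hx y hy (fun h => hab (by rw [h]))

/-! ## The two functionals -/

theorem sum_mul_coef : ∀ (l : List (Nat × Int)), (∀ p ∈ l, p.1 < 416) → ∀ f : Nat → Int,
    ∑ i : V, f i.val * coef l i.val = wsum l f
  | [], _, f => by simp [coef, wsum]
  | p :: l, h, f => by
    have ih := sum_mul_coef l (fun q hq => h q (List.mem_cons_of_mem _ hq)) f
    have hp := h p (List.mem_cons_self ..)
    simp only [coef, mul_add, Finset.sum_add_distrib, ih]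
    rw [Finset.sum_eq_single (⟨p.1, hp⟩ : V)]
    · simp [wsum, mul_comm]
    · intro b _ hb
      rw [if_neg (fun h => hb (Fin.ext h.symm)), mul_zero]
    · exact fun h => absurd (Finset.mem_univ _) h

theorem range_of_check {l : List (Nat × Int)} (h : rangeCheck l = true) : ∀ p ∈ l, p.1 < 416 := by
  simpa [rangeCheck] using h

def fu (i : V) : Int := coef uSupp i.val
def fw (i : V) : Int := coef wSupp i.val

theorem adj_sum_coef {l : List (Nat × Int)} (hr : rangeCheck l = true) (he : eigCheck l = true)
    (i : V) : (∑ j : V, if Adj i j then coef l j.val else 0) = 20 * coef l i.val := by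
  simp only [eigCheck, List.all_eq_true, List.mem_range, beq_iff_eq] at he
  rw [← he i.val i.isLt, ← sum_mul_coef l (range_of_check hr)]
  refine Finset.sum_congr rfl (fun j _ => ?_)
  by_cases h : adj i.val j.val <;> simp [Adj, h]

theorem adj_sum_fu (i : V) : (∑ j : V, if Adj i j then fu j else 0) = 20 * fu i :=
  adj_sum_coef rangeCheck_u eigCheck_u i

theorem adj_sum_fw (i : V) : (∑ j : V, if Adj i j then fw j else 0) = 20 * fw i :=
  adj_sum_coef rangeCheck_w eigCheck_w i

theorem sum_fu : ∑ i, fu i = 0 := by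
  have h := sum_mul_coef uSupp (range_of_check rangeCheck_u) (fun _ => 1)
  simp only [one_mul] at h
  exact h.trans wsum_u_one

theorem sum_fw : ∑ i, fw i = 0 := by
  have h := sum_mul_coef wSupp (range_of_check rangeCheck_w) (fun _ => 1)
  simp only [one_mul] at h
  exact h.trans wsum_w_one

theorem fu_fu : ∑ i, fu i * fu i = 64 :=
  (sum_mul_coef uSupp (range_of_check rangeCheck_u) (coef uSupp)).trans wsum_u_u

theorem fu_fw : ∑ i, fu i * fw i = 0 :=
  (sum_mul_coef wSupp (range_of_check rangeCheck_w) (coef uSupp)).trans wsum_w_u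

theorem fw_fw : ∑ i, fw i * fw i = 192 :=
  (sum_mul_coef wSupp (range_of_check rangeCheck_w) (coef wSupp)).trans wsum_w_w

theorem card_zero_u : (Finset.univ.filter (fun i => fu i = 0)).card = 352 := by
  have h : (Finset.univ.filter (fun i => fu i = 0)) =
      Finset.univ.filter (fun i : V => decide (coef uSupp i.val = 0) = true) :=
    Finset.filter_congr (fun i _ => by simp [fu])
  exact (congrArg Finset.card h).trans ((card_filter_eq_countP _).trans countP_u)

theorem card_zero_both : (Finset.univ.filter (fun i => fu i = 0 ∧ fw i = 0)).card = 320 := by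
  have h : (Finset.univ.filter (fun i => fu i = 0 ∧ fw i = 0)) = Finset.univ.filter
      (fun i : V => decide (coef uSupp i.val = 0 ∧ coef wSupp i.val = 0) = true) :=
    Finset.filter_congr (fun i _ => by simp [fu, fw])
  exact (congrArg Finset.card h).trans ((card_filter_eq_countP _).trans countP_uw)

theorem extra_vertex : fu 4 = -1 ∧ fw 4 = -1 := coef_extra

end Vale.Agent.P052
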